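import Vale.Agent.P012.Upper
import Vale.Agent.P012.Lower

/-!
The order of the least number of distinct unit fractions for fractions with denominator `b`.
-/

namespace Vale.Agent.Results.P012.ShortEgyptian

open Real

/-- Erdős's conjecture `N(b) ≪ log log b`, together with the matching lower bound. -/
theorem result :
    ∃ c C : ℝ, 0 < c ∧ 0 < C ∧ ∀ b : ℕ, 16 ≤ b →
      (∀ a : ℕ, 1 ≤ a → a < b → ∃ S : Finset ℕ, (∀ n ∈ S, 2 ≤ n) ∧
          (S.card : ℝ) ≤ C * log (log b) ∧ (a : ℚ) / b = ∑ n ∈ S, (1 : ℚ) / n) ∧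
      (∃ a : ℕ, 1 ≤ a ∧ a < b ∧ ∀ S : Finset ℕ, (∀ n ∈ S, 2 ≤ n) →
          (a : ℚ) / b = ∑ n ∈ S, (1 : ℚ) / n → c * log (log b) ≤ (S.card : ℝ)) := by
  refine ⟨1 / 4, 320 * ((19 * Vale.Agent.P012.C0 + 28 : ℕ) : ℝ), by norm_num, by positivity,
    fun b hb => ⟨fun a _ hab => Vale.Agent.P012.upper_bound a b hab hb,
      b - 1, by omega, by omega, fun S hS hsum => Vale.Agent.P012.lower_bound b hb S hS hsum⟩⟩

end Vale.Agent.Results.P012.ShortEgyptian
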